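import Mathlib.MeasureTheory.Integral.IntervalIntegral.Periodic
import Mathlib.Analysis.SpecialFunctions.Trigonometric.Basic

/-!
# P108: the standard map on the torus
-/

open MeasureTheory Filter Set Topology

namespace Vale.Agent.P108.Tor

/-- The function `x ↦ sin (2 π x)` on the circle `ℝ/ℤ`. -/
noncomputable def sinT : UnitAddCircle → ℝ :=
  Function.Periodic.lift (f := fun x : ℝ => Real.sin (2 * Real.pi * x)) (c := 1)
    (fun x => by
      show Real.sin (2 * Real.pi * (x + 1)) = Real.sin (2 * Real.pi * x)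
      rw [mul_add, mul_one, Real.sin_add_two_pi])

/-- The standard map `(x, y) ↦ (x + y + k sin (2 π x), y + k sin (2 π x))` on the torus
`(ℝ/ℤ)²`. -/
noncomputable def stdMap (k : ℝ) (p : UnitAddCircle × UnitAddCircle) :
    UnitAddCircle × UnitAddCircle :=
  (p.1 + p.2 + ((k * sinT p.1 : ℝ) : UnitAddCircle), p.2 + ((k * sinT p.1 : ℝ) : UnitAddCircle))

@[simp] lemma sinT_coe (x : ℝ) : sinT (x : UnitAddCircle) = Real.sin (2 * Real.pi * x) := rfl

/-- The formula of the standard map in real coordinates. -/
theorem stdMap_coe (k x y : ℝ) :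
    stdMap k ((x : UnitAddCircle), (y : UnitAddCircle)) =
      (((x + y + k * Real.sin (2 * Real.pi * x) : ℝ) : UnitAddCircle),
        ((y + k * Real.sin (2 * Real.pi * x) : ℝ) : UnitAddCircle)) := by
  simp only [stdMap, sinT_coe, AddCircle.coe_add]

end Vale.Agent.P108.Tor
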