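import Vale.Agent.P108.Bdl.B1
import Vale.Agent.P108.Dyn.Basic
import Vale.Agent.P109.F674.KS
import Vale.Agent.P108.Tor.Defs

/-!
# P108: transfer of the results from the square to the torus, and from `k` to `-k`
-/

open MeasureTheory Filter Set Topology
open scoped ENNReal

namespace Vale.Agent.P108.Tor

open Vale.Agent.P108 Vale.Agent.P108.FT Vale.Agent.P109.KS

/-! ### entropy of factors -/

lemma measurable_name {X A : Type} [MeasurableSpace X] [MeasurableSpace A] {T : X → X} {f : X → A}
    (hT : Measurable T) (hf : Measurable f) (n : ℕ) : Measurable (name T f n) :=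
  measurable_pi_lambda _ fun i => hf.comp (hT.iterate i)

lemma shannon_comp {X Y A : Type} [MeasurableSpace X] [MeasurableSpace Y] [Fintype A]
    {μ : Measure X} {ν : Measure Y} {π : X → Y} (hπ : MeasurePreserving π μ ν) {g : Y → A}
    (hg : ∀ a, MeasurableSet (g ⁻¹' {a})) : shannon μ (g ∘ π) = shannon ν g := by
  unfold shannon
  refine Finset.sum_congr rfl fun a _ => ?_
  rw [Set.preimage_comp, hπ.measureReal_preimage (hg a).nullMeasurableSet]

/-- The entropy does not increase when passing to a factor. -/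
theorem ksEntropy_le_of_factor {X Y : Type} [MeasurableSpace X] [MeasurableSpace Y]
    {μ : Measure X} {ν : Measure Y} {T : X → X} {S : Y → Y} {π : X → Y}
    (hπ : MeasurePreserving π μ ν) (hS : Measurable S) (h : Function.Semiconj π T S) :
    ksEntropy ν S ≤ ksEntropy μ T := by
  unfold ksEntropy
  refine iSup_le fun d => iSup_le fun f => iSup_le fun hf => ?_
  refine le_trans ?_ (le_iSup_of_le d (le_iSup_of_le (f ∘ π) (le_iSup_of_le
    (hf.comp hπ.measurable) le_rfl)))
  refine Filter.limsup_le_limsup (Eventually.of_forall fun n => ?_)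
  have e : name T (f ∘ π) n = name S f n ∘ π := by
    funext x i
    simp only [name, Function.comp_apply]
    rw [(h.iterate_right i).eq]
  show ENNReal.ofReal (shannon ν (name S f n) / n) ≤
    ENNReal.ofReal (shannon μ (name T (f ∘ π) n) / n)
  rw [e, shannon_comp hπ fun a => measurable_name hS hf n (measurableSet_singleton a)]

/-! ### the square and the torus -/

/-- the section of the projection of the square onto the torus -/
noncomputable def sg (p : UnitAddCircle × UnitAddCircle) : ℝ × ℝ := (sec p.1, sec p.2)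

lemma mp_sg : MeasurePreserving sg volume mQ := by
  rw [mQ_eq]
  exact mp_sec.prod mp_sec

lemma measurable_T' (k : ℝ) : Measurable (T k) := (mp_T k).measurable

lemma semiconj_sg (k : ℝ) : Function.Semiconj sg (stdMap k) (T k) := by
  rintro ⟨x, y⟩
  induction x using QuotientAddGroup.induction_on with
  | _ x =>
  induction y using QuotientAddGroup.induction_on with
  | _ y =>
  rw [stdMap_coe]
  simp only [sg, sec_mk, T, F]
  have h1 : Real.sin (2 * Real.pi * Int.fract x) = Real.sin (2 * Real.pi * x) := by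
    have : 2 * Real.pi * Int.fract x = 2 * Real.pi * x - ⌊x⌋ * (2 * Real.pi) := by
      rw [Int.fract]; ring
    rw [this, Real.sin_sub_int_mul_two_pi]
  rw [h1]
  refine Prod.ext ?_ ?_
  · simp only
    rw [Int.fract_eq_fract]
    refine ⟨⌊x⌋ + ⌊y⌋, ?_⟩
    have hx := Int.floor_add_fract x
    have hy := Int.floor_add_fract y
    push_cast
    linarith
  · simp only
    rw [Int.fract_eq_fract]
    refine ⟨⌊y⌋, ?_⟩
    have hy := Int.floor_add_fract y
    linarith

/-- The entropy of the map on the torus is at least that of the map of the square. -/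
theorem ksEntropy_torus_ge (k : ℝ) :
    ksEntropy mQ (T k) ≤ ksEntropy (volume : Measure (UnitAddCircle × UnitAddCircle))
      (stdMap k) :=
  ksEntropy_le_of_factor mp_sg (measurable_T' k) (semiconj_sg k)

/-! ### measurability and invariance on the torus -/

lemma measurable_sinT : Measurable sinT := by
  have h : sinT = fun x => Real.sin (2 * Real.pi * sec x) := by
    funext x
    induction x using QuotientAddGroup.induction_on with
    | _ x =>
    rw [sinT_coe, sec_mk]
    have : 2 * Real.pi * Int.fract x = 2 * Real.pi * x - ⌊x⌋ * (2 * Real.pi) := by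
      rw [Int.fract]; ring
    rw [this, Real.sin_sub_int_mul_two_pi]
  rw [h]
  exact Real.measurable_sin.comp (measurable_const.mul measurable_sec)

lemma measurable_coe : Measurable ((↑) : ℝ → UnitAddCircle) := mp_mk.measurable

lemma measurable_stdMap (k : ℝ) : Measurable (stdMap k) := by
  unfold stdMap
  have h : Measurable fun p : UnitAddCircle × UnitAddCircle =>
      ((k * sinT p.1 : ℝ) : UnitAddCircle) :=
    measurable_coe.comp (measurable_const.mul (measurable_sinT.comp measurable_fst))
  exact ((measurable_fst.add measurable_snd).add h).prodMk (measurable_snd.add h)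

/-- the projection of the square onto the torus -/
noncomputable def pr (z : ℝ × ℝ) : UnitAddCircle × UnitAddCircle := ((z.1 : UnitAddCircle), (z.2 : UnitAddCircle))

lemma mp_pr : MeasurePreserving pr mQ volume := by
  rw [mQ_eq]
  exact mp_mk.prod mp_mk

lemma pr_sg (p : UnitAddCircle × UnitAddCircle) : pr (sg p) = p := by
  obtain ⟨x, y⟩ := p
  simp only [pr, sg, sec]
  refine Prod.ext ?_ ?_
  · exact AddCircle.coe_equivIco
  · exact AddCircle.coe_equivIco

/-- The standard map preserves the Haar measure of the torus. -/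
theorem mp_stdMap (k : ℝ) : MeasurePreserving (stdMap k)
    (volume : Measure (UnitAddCircle × UnitAddCircle)) volume := by
  have h : stdMap k = pr ∘ T k ∘ sg := by
    funext p
    simp only [Function.comp_apply]
    rw [← (semiconj_sg k).eq, pr_sg]
  rw [h]
  exact mp_pr.comp ((mp_T k).comp mp_sg)

/-! ### the symmetry `k ↦ -k` -/

/-- translation by `(1/2, 0)` -/
noncomputable def tr (p : UnitAddCircle × UnitAddCircle) : UnitAddCircle × UnitAddCircle :=
  (((1 / 2 : ℝ) : UnitAddCircle) + p.1, p.2)

lemma mp_tr : MeasurePreserving tr (volume : Measure (UnitAddCircle × UnitAddCircle)) volume :=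
  (measurePreserving_add_left (volume : Measure UnitAddCircle) ((1 / 2 : ℝ) : UnitAddCircle)).prod
    (MeasurePreserving.id (volume : Measure UnitAddCircle))

lemma sinT_half_add (x : UnitAddCircle) :
    sinT (((1 / 2 : ℝ) : UnitAddCircle) + x) = - sinT x := by
  induction x using QuotientAddGroup.induction_on with
  | _ x =>
  change sinT (((1 / 2 : ℝ) : UnitAddCircle) + (x : UnitAddCircle)) = - sinT (x : UnitAddCircle)
  rw [← AddCircle.coe_add, sinT_coe, sinT_coe]
  have : 2 * Real.pi * (1 / 2 + x) = 2 * Real.pi * x + Real.pi := by ring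
  rw [this, Real.sin_add_pi]

lemma semiconj_tr (k : ℝ) : Function.Semiconj tr (stdMap (-k)) (stdMap k) := by
  rintro ⟨x, y⟩
  simp only [tr, stdMap, sinT_half_add]
  rw [show -k * sinT x = k * -sinT x by ring]
  refine Prod.ext ?_ rfl
  simp only
  abel

theorem ksEntropy_neg (k : ℝ) :
    ksEntropy (volume : Measure (UnitAddCircle × UnitAddCircle)) (stdMap (-k)) =
      ksEntropy (volume : Measure (UnitAddCircle × UnitAddCircle)) (stdMap k) := by
  apply le_antisymm
  · have := ksEntropy_le_of_factor mp_tr (measurable_stdMap (-k)) (semiconj_tr (-k))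
    rwa [neg_neg] at this
  · exact ksEntropy_le_of_factor mp_tr (measurable_stdMap k) (semiconj_tr k)

lemma F_neg (k : ℝ) (z : ℝ × ℝ) : F k (z + (1 / 2, 0)) = F (-k) z + (1 / 2, 0) := by
  unfold F
  have : 2 * Real.pi * (z.1 + 1 / 2) = 2 * Real.pi * z.1 + Real.pi := by ring
  refine Prod.ext ?_ ?_
  · simp only [Prod.fst_add, Prod.snd_add]
    rw [this, Real.sin_add_pi]
    ring
  · simp only [Prod.fst_add, Prod.snd_add]
    rw [this, Real.sin_add_pi]
    ring

lemma F_iter_neg (k : ℝ) (n : ℕ) (z : ℝ × ℝ) :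
    (F k)^[n] (z + (1 / 2, 0)) = (F (-k))^[n] z + (1 / 2, 0) := by
  have h : Function.Semiconj (fun z : ℝ × ℝ => z + (1 / 2, 0)) (F (-k)) (F k) :=
    fun z => (F_neg k z).symm
  exact ((h.iterate_right n).eq z).symm

lemma M_neg (k : ℝ) (n : ℕ) (z : ℝ × ℝ) : M n (-k) z = M n k (z + (1 / 2, 0)) := by
  unfold M
  have h : (F (-k))^[n] = fun w => (F k)^[n] (w + (1 / 2, 0)) - (1 / 2, 0) := by
    funext w
    rw [F_iter_neg, add_sub_cancel_right]
  rw [h, fderiv_sub_const]
  exact fderiv_comp_add_right _

lemma lyap_neg (k : ℝ) (z : ℝ × ℝ) : lyap (-k) z = lyap k (z + (1 / 2, 0)) := by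
  rw [lyap_eq, lyap_eq]
  simp only [g, M_neg]

/-- translation by `(1/2, 0)` on the square -/
noncomputable def trQ (z : ℝ × ℝ) : ℝ × ℝ := Dyn.fr (z + (1 / 2, 0))

lemma mp_trQ : MeasurePreserving trQ mQ mQ := by
  have h : trQ = fun z : ℝ × ℝ => (Int.fract (z.1 + 1 / 2), Int.fract (z.2 + 0)) := rfl
  rw [h, mQ_eq]
  exact (mp_fract_add (1 / 2)).prod (mp_fract_add 0)

lemma lyap_fr (k : ℝ) (z : ℝ × ℝ) : lyap k (Dyn.fr z) = lyap k z := by
  rw [lyap_eq, lyap_eq, Dyn.fr_eq]
  have h : (ip (-⌊z.1⌋) (-⌊z.2⌋) : ℝ × ℝ) = ip (-⌊z.1⌋) (-⌊z.2⌋) := rfl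
  simp only [g, M_add_ip]

lemma lyap_trQ (k : ℝ) (z : ℝ × ℝ) : lyap k (trQ z) = lyap (-k) z := by
  rw [trQ, lyap_fr, lyap_neg]

theorem ent_neg (k : ℝ) : ent (-k) = ent k := by
  rw [ent_eq', ent_eq']
  have h1 : ∫ z, lyap k z ∂mQ = ∫ z, lyap k (trQ z) ∂mQ := by
    rw [← integral_map (φ := trQ) mp_trQ.measurable.aemeasurable
      (measurable_lyap k).aestronglyMeasurable, mp_trQ.map_eq]
  rw [h1]
  simp only [lyap_trQ]

theorem volume_lyap_neg (k : ℝ) :
    volume {z | z ∈ Q ∧ 0 < lyap (-k) z} = volume {z | z ∈ Q ∧ 0 < lyap k z} := by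
  have e : ∀ κ : ℝ, volume {z | z ∈ Q ∧ 0 < lyap κ z} = mQ {z | 0 < lyap κ z} := by
    intro κ
    rw [mQ, Measure.restrict_apply' measurableSet_Q]
    congr 1
    ext z
    simp [and_comm]
  rw [e, e, ← mp_trQ.measure_preimage
    (measurableSet_lt measurable_const (measurable_lyap k)).nullMeasurableSet]
  congr 1
  ext z
  simp only [mem_preimage, mem_ofPred_eq, lyap_trQ]

end Vale.Agent.P108.Tor
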