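import Vale.Agent.P108.Tor.Transfer

/-!
# P108: the final statement from the results on the square
-/

open MeasureTheory Filter Set Topology
open scoped ENNReal

namespace Vale.Agent.P108.Tor

open Vale.Agent.P108 Vale.Agent.P108.FT Vale.Agent.P109.KS

/-- The final statement. -/
def Stmt : Prop :=
  (∃ k₀ : ℝ, ∀ k : ℝ, k₀ ≤ |k| →
    0 < ksEntropy (volume : Measure (UnitAddCircle × UnitAddCircle)) (stdMap k) ∧
    Real.log |k| / 4 ≤ ent k ∧
    0 < volume {z | z ∈ Q ∧ 0 < lyap k z}) ∧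
  volume {k : ℝ | 0 < ksEntropy (volume : Measure (UnitAddCircle × UnitAddCircle)) (stdMap k)} = ⊤

theorem stmt_of
    (h1 : ∃ k₀ : ℝ, ∀ k ≥ k₀, (1 / 4) * Real.log k ≤ ent k ∧ 0 < ent k ∧
      0 < volume {z | z ∈ Q ∧ 0 < lyap k z})
    (h2 : ∃ k₀ : ℝ, ∀ k ≥ k₀, 0 < ksEntropy mQ (T k)) : Stmt := by
  obtain ⟨k₁, h1⟩ := h1
  obtain ⟨k₂, h2⟩ := h2
  have key : ∀ k : ℝ, max k₁ k₂ ≤ |k| →
      0 < ksEntropy (volume : Measure (UnitAddCircle × UnitAddCircle)) (stdMap k) ∧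
      Real.log |k| / 4 ≤ ent k ∧
      0 < volume {z | z ∈ Q ∧ 0 < lyap k z} := by
    intro k hk
    have hA := h1 |k| ((le_max_left _ _).trans hk)
    have hB := h2 |k| ((le_max_right _ _).trans hk)
    have hC := hB.trans_le (ksEntropy_torus_ge |k|)
    have hA' : Real.log |k| / 4 ≤ ent |k| := by
      have := hA.1
      linarith
    rcases le_total 0 k with h | h
    · rw [abs_of_nonneg h] at *
      exact ⟨hC, hA', hA.2.2⟩
    · rw [abs_of_nonpos h] at *
      refine ⟨?_, ?_, ?_⟩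
      · rwa [ksEntropy_neg] at hC
      · rwa [ent_neg] at hA'
      · rw [← volume_lyap_neg]
        exact hA.2.2
  refine ⟨⟨_, key⟩, ?_⟩
  refine top_unique ?_
  have hsub : Ici (max (max k₁ k₂) 0) ⊆ {k : ℝ | 0 < ksEntropy
      (volume : Measure (UnitAddCircle × UnitAddCircle)) (stdMap k)} := by
    intro k hk
    have hk0 : 0 ≤ k := (le_max_right _ _).trans hk
    have hk1 : max k₁ k₂ ≤ |k| := by
      rw [abs_of_nonneg hk0]
      exact (le_max_left _ _).trans hk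
    exact (key k hk1).1
  calc (⊤ : ℝ≥0∞) = volume (Ici (max (max k₁ k₂) 0)) := Real.volume_Ici.symm
    _ ≤ _ := measure_mono hsub

end Vale.Agent.P108.Tor
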