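import Vale.Agent.P108.Tor.Lyap

/-!
# P108: the Kolmogorov-Sinai form on the torus
-/

open MeasureTheory Filter Set Topology
open scoped ENNReal

namespace Vale.Agent.P108.Tor

open Vale.Agent.P108 Vale.Agent.P108.FT Vale.Agent.P109.KS

/-- a lower bound for the entropy on the square gives one on the torus, for all parameters of
large modulus -/
theorem ks_abs_of_pos {d : ℝ}
    (h2 : ∃ k₀ : ℝ, ∀ k ≥ k₀, ENNReal.ofReal (Real.log k / d) ≤ ksEntropy mQ (T k)) :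
    ∃ k₀ : ℝ, ∀ k : ℝ, k₀ ≤ |k| → ENNReal.ofReal (Real.log |k| / d) ≤
      ksEntropy (volume : Measure (UnitAddCircle × UnitAddCircle)) (stdMap k) := by
  obtain ⟨k₀, h2⟩ := h2
  refine ⟨k₀, fun k hk => ?_⟩
  have hC := (h2 |k| hk).trans (ksEntropy_torus_ge |k|)
  rcases le_total 0 k with h | h
  · rw [abs_of_nonneg h] at hC ⊢
    exact hC
  · rw [abs_of_nonpos h, ksEntropy_neg] at hC
    rw [abs_of_nonpos h]
    exact hC

/-- **Kolmogorov-Sinai form** -/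
theorem ks_form {c d : ℝ} (hd : 0 < d)
    (h1 : ∃ k₀ : ℝ, ∀ k ≥ k₀, c * Real.log k ≤ ent k ∧ 0 < ent k ∧
      0 < volume {z | z ∈ Q ∧ 0 < lyap k z})
    (h2 : ∃ k₀ : ℝ, ∀ k ≥ k₀, ENNReal.ofReal (Real.log k / d) ≤ ksEntropy mQ (T k)) :
    0 < volume {k : ℝ |
      0 < ksEntropy (volume : Measure (UnitAddCircle × UnitAddCircle)) (stdMap k)} ∧
    ∃ k₀ : ℝ, ∀ k : ℝ, k₀ ≤ |k| →
      0 < ksEntropy (volume : Measure (UnitAddCircle × UnitAddCircle)) (stdMap k) ∧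
      ENNReal.ofReal (Real.log |k| / d) ≤
        ksEntropy (volume : Measure (UnitAddCircle × UnitAddCircle)) (stdMap k) ∧
      c * Real.log |k| ≤ ent k ∧ 0 < volume {z | z ∈ Q ∧ 0 < lyap k z} := by
  obtain ⟨k₁, h1⟩ := abs_of_pos h1
  obtain ⟨k₂, h2⟩ := ks_abs_of_pos h2
  have key : ∀ k : ℝ, max (max k₁ k₂) 2 ≤ |k| →
      0 < ksEntropy (volume : Measure (UnitAddCircle × UnitAddCircle)) (stdMap k) ∧
      ENNReal.ofReal (Real.log |k| / d) ≤
        ksEntropy (volume : Measure (UnitAddCircle × UnitAddCircle)) (stdMap k) ∧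
      c * Real.log |k| ≤ ent k ∧ 0 < volume {z | z ∈ Q ∧ 0 < lyap k z} := by
    intro k hk
    have hk1 : k₁ ≤ |k| := ((le_max_left _ _).trans (le_max_left _ _)).trans hk
    have hk2 : k₂ ≤ |k| := ((le_max_right _ _).trans (le_max_left _ _)).trans hk
    have hk3 : (2 : ℝ) ≤ |k| := (le_max_right _ _).trans hk
    have hlog : 0 < Real.log |k| / d := div_pos (Real.log_pos (by linarith)) hd
    exact ⟨(ENNReal.ofReal_pos.2 hlog).trans_le (h2 k hk2), h2 k hk2, (h1 k hk1).1,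
      (h1 k hk1).2.2⟩
  refine ⟨?_, ⟨_, key⟩⟩
  have h : volume {k : ℝ | 0 < ksEntropy (volume : Measure (UnitAddCircle × UnitAddCircle))
      (stdMap k)} = ⊤ := volume_top_of ⟨_, fun k hk => (key k hk).1⟩
  rw [h]
  exact ENNReal.zero_lt_top

end Vale.Agent.P108.Tor
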