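import Vale.Agent.P108.Tor.Transfer

/-!
# P108: from large positive parameters to all parameters of large modulus
-/

open MeasureTheory Filter Set Topology
open scoped ENNReal

namespace Vale.Agent.P108.Tor

open Vale.Agent.P108 Vale.Agent.P108.FT Vale.Agent.P109.KS

/-- the results for large positive parameters hold for all parameters of large modulus -/
theorem abs_of_pos {c : ℝ}
    (h1 : ∃ k₀ : ℝ, ∀ k ≥ k₀, c * Real.log k ≤ ent k ∧ 0 < ent k ∧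
      0 < volume {z | z ∈ Q ∧ 0 < lyap k z}) :
    ∃ k₀ : ℝ, ∀ k : ℝ, k₀ ≤ |k| →
      c * Real.log |k| ≤ ent k ∧ 0 < ent k ∧ 0 < volume {z | z ∈ Q ∧ 0 < lyap k z} := by
  obtain ⟨k₀, h1⟩ := h1
  refine ⟨k₀, fun k hk => ?_⟩
  have hA := h1 |k| hk
  rcases le_total 0 k with h | h
  · rw [abs_of_nonneg h] at *
    exact hA
  · rw [abs_of_nonpos h] at *
    rw [ent_neg, volume_lyap_neg] at hA
    exact hA

/-- a set containing all parameters of large modulus has infinite measure -/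
theorem volume_top_of {P : ℝ → Prop} (h : ∃ k₀ : ℝ, ∀ k : ℝ, k₀ ≤ |k| → P k) :
    volume {k : ℝ | P k} = ⊤ := by
  obtain ⟨k₀, h⟩ := h
  refine top_unique ?_
  calc (⊤ : ℝ≥0∞) = volume (Ici (max k₀ 0)) := Real.volume_Ici.symm
    _ ≤ _ := measure_mono fun k hk => h k (((le_max_left _ _).trans hk).trans (le_abs_self k))

/-- the Kolmogorov-Sinai entropy on the torus for all parameters of large modulus -/
theorem ks_of_pos (h2 : ∃ k₀ : ℝ, ∀ k ≥ k₀, 0 < ksEntropy mQ (T k)) :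
    ∃ k₀ : ℝ, ∀ k : ℝ, k₀ ≤ |k| →
      0 < ksEntropy (volume : Measure (UnitAddCircle × UnitAddCircle)) (stdMap k) := by
  obtain ⟨k₀, h2⟩ := h2
  refine ⟨k₀, fun k hk => ?_⟩
  have hC := (h2 |k| hk).trans_le (ksEntropy_torus_ge |k|)
  rcases le_total 0 k with h | h
  · rwa [abs_of_nonneg h] at hC
  · rwa [abs_of_nonpos h, ksEntropy_neg] at hC

/-- **Lyapunov form** -/
theorem lyap_form {c : ℝ}
    (h1 : ∃ k₀ : ℝ, ∀ k ≥ k₀, c * Real.log k ≤ ent k ∧ 0 < ent k ∧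
      0 < volume {z | z ∈ Q ∧ 0 < lyap k z}) :
    (∃ k₀ : ℝ, ∀ k : ℝ, k₀ ≤ |k| →
      c * Real.log |k| ≤ ent k ∧ 0 < ent k ∧ 0 < volume {z | z ∈ Q ∧ 0 < lyap k z}) ∧
    volume {k : ℝ | 0 < ent k} = ⊤ := by
  have h := abs_of_pos h1
  refine ⟨h, volume_top_of ?_⟩
  obtain ⟨k₀, h⟩ := h
  exact ⟨k₀, fun k hk => (h k hk).2.1⟩

/-- **Full form** -/
theorem full_form {c : ℝ}
    (h1 : ∃ k₀ : ℝ, ∀ k ≥ k₀, c * Real.log k ≤ ent k ∧ 0 < ent k ∧
      0 < volume {z | z ∈ Q ∧ 0 < lyap k z})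
    (h2 : ∃ k₀ : ℝ, ∀ k ≥ k₀, 0 < ksEntropy mQ (T k)) :
    (∃ k₀ : ℝ, ∀ k : ℝ, k₀ ≤ |k| →
      0 < ksEntropy (volume : Measure (UnitAddCircle × UnitAddCircle)) (stdMap k) ∧
      c * Real.log |k| ≤ ent k ∧ 0 < volume {z | z ∈ Q ∧ 0 < lyap k z}) ∧
    volume {k : ℝ | 0 < ksEntropy (volume : Measure (UnitAddCircle × UnitAddCircle)) (stdMap k)}
      = ⊤ := by
  have hk := ks_of_pos h2
  refine ⟨?_, volume_top_of hk⟩
  obtain ⟨k₁, h1⟩ := abs_of_pos h1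
  obtain ⟨k₂, hk⟩ := hk
  exact ⟨max k₁ k₂, fun k h => ⟨hk k ((le_max_right _ _).trans h),
    (h1 k ((le_max_left _ _).trans h)).1, (h1 k ((le_max_left _ _).trans h)).2.2⟩⟩

end Vale.Agent.P108.Tor
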