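import Vale.Agent.P108.H504.Compose
import Vale.Agent.P108.H850.ZoneAt
import Vale.Agent.P108.Tor.Lyap

/-!
# P108: positive entropy for all large parameters
-/

open MeasureTheory Filter Set Topology

namespace Vale.Agent.P108.Tor

open Vale.Agent.P108

/-- all large positive parameters -/
theorem sinai : ∃ k₀ : ℝ, ∀ k ≥ k₀, 99 / 100 * Real.log k ≤ ent k ∧ 0 < ent k ∧
    0 < volume {z | z ∈ Q ∧ 0 < lyap k z} :=
  H504.main_of_zone H850.zone_eventually

end Vale.Agent.P108.Tor
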