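import Vale.Agent.P108.Tor.Sinai
import Vale.Agent.P108.Tor.KS
import Vale.Agent.P108.H954.KSFinal

/-!
# P108: positive Kolmogorov-Sinai entropy for all large parameters
-/

open MeasureTheory Filter Set Topology
open scoped ENNReal

namespace Vale.Agent.P108.Tor

open Vale.Agent.P108 Vale.Agent.P108.FT Vale.Agent.P109.KS

/-- all large positive parameters, on the square -/
theorem sinai_ks : ∃ k₀ : ℝ, ∀ k ≥ k₀, ENNReal.ofReal (Real.log k / 400) ≤ ksEntropy mQ (T k) :=
  H954.ks_main_of H850.zone_eventually H504.decor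

end Vale.Agent.P108.Tor
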